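import Vale.Agent.P275RL.Rd
import Vale.Agent.P275MB.Gau

/-!
P275 (helper16): words, projectively flat germs.
-/

set_option linter.all false

open scoped Topology Real Matrix.Norms.Operator
open Filter Set Metric Complex Matrix
open Vale.Agent.P275NA (Mn)
open Vale.Agent.P281Z.Hm (an_inv an_det)
open Vale.Agent.P275Z Vale.Agent.P275RL Vale.Agent.P275MB

noncomputable section

namespace Vale.Agent.P275RI

variable {n g : ℕ} {ρ ρ' : Tup g n} {h M : Mn n} {a a' Φ Ψ F F' φ : ℂ → Mn n} {w : ℂ}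

theorem wv_mul (ρ : Tup g n) (a b : Fg g) : wv ρ (a * b) = wv ρ a * wv ρ b :=
  congrArg Subtype.val (map_mul (FreeGroup.lift ρ) a b)

theorem wv_one (ρ : Tup g n) : wv ρ 1 = 1 := congrArg Subtype.val (map_one (FreeGroup.lift ρ))

theorem wv_det (ρ : Tup g n) (a : Fg g) : (wv ρ a).det = 1 := (FreeGroup.lift ρ a).2

theorem wv_ne (ρ : Tup g n) (a : Fg g) : (wv ρ a).det ≠ 0 := by rw [wv_det]; exact one_ne_zero

theorem wv_of (ρ : Tup g n) (s : Fin g × Bool) : wv ρ (FreeGroup.of s) = (ρ s).1 := by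
  simp only [wv, FreeGroup.lift_apply_of]

theorem wv_inv (ρ : Tup g n) (a : Fg g) : wv ρ a⁻¹ = (wv ρ a)⁻¹ :=
  (inv_eq_left_inv (by rw [← wv_mul, inv_mul_cancel, wv_one])).symm

theorem wv_ext {f : Fg g → Mn n} (h1 : f 1 = 1) (hm : ∀ a b, f (a * b) = f a * f b)
    (e : ∀ s, (ρ s).1 = f (FreeGroup.of s)) (a : Fg g) : wv ρ a = f a := by
  induction a using FreeGroup.induction_on with
  | C1 => rw [wv_one, h1]
  | of s => rw [wv_of, e]
  | inv_of s i =>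
    rw [wv_inv, i]
    exact inv_eq_left_inv (by rw [← hm, inv_mul_cancel, h1])
  | mul a b i j => rw [wv_mul, hm, i, j]

theorem cj_wv (d : h.det ≠ 0) (c : Cj h ρ ρ') (a : Fg g) : wv ρ' a = h⁻¹ * wv ρ a * h :=
  wv_ext (f := fun a => h⁻¹ * wv ρ a * h)
    (by simp only [wv_one, Matrix.mul_one, nonsing_inv_mul _ d.isUnit])
    (fun a b => by
      simp only [wv_mul, Matrix.mul_assoc, mul_nonsing_inv_cancel_left _ _ d.isUnit])
    (fun s => by rw [wv_of]; exact c s) a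

theorem im_wv {t : Aut g n} {χ : Fg g →* ℂ} (e : ∀ s, χ (FreeGroup.of s) = t.χ s)
    (c : t.Im ρ ρ') (a : Fg g) : wv ρ' a = χ a • wv ρ (t.φ a) :=
  wv_ext (f := fun a => χ a • wv ρ (t.φ a)) (by simp only [map_one, wv_one, one_smul])
    (fun a b => by simp only [map_mul, wv_mul, smul_mul_smul_comm])
    (fun s => by rw [e]; exact c s) a

theorem cj_of (d : h.det ≠ 0) (e : ∀ a, wv ρ a * h = h * wv ρ' a) : Cj h ρ ρ' := fun s => by
  rw [← wv_of, ← wv_of, Matrix.mul_assoc, e, nonsing_inv_mul_cancel_left _ _ d.isUnit]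

/-- the conjugate tuple -/
def cj (h : Mn n) (d : h.det ≠ 0) (ρ : Tup g n) : Tup g n := fun s => ⟨h⁻¹ * (ρ s).1 * h, by
  rw [det_mul, det_mul, (ρ s).2, mul_one, ← det_mul, nonsing_inv_mul _ d.isUnit, det_one]⟩

theorem cj_cj (d : h.det ≠ 0) (ρ : Tup g n) : Cj h ρ (cj h d ρ) := fun _ => rfl

theorem ex_root {c : ℂ} (hc : c ≠ 0) (h0 : n = 0 → c = 1) : ∃ κ : ℂ, κ ≠ 0 ∧ κ ^ n = c := by
  rcases Nat.eq_zero_or_pos n with rfl | hn
  · exact ⟨1, one_ne_zero, by rw [h0 rfl, pow_zero]⟩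
  obtain ⟨κ, e⟩ := IsAlgClosed.exists_pow_nat_eq c hn
  exact ⟨κ, fun a => hc (by rw [← e, a, zero_pow hn.ne']), e⟩

theorem det_sm (c : ℂ) (X : Mn n) : (c • X).det = c ^ n * X.det := by
  rw [det_smul, Fintype.card_fin]

theorem inv_sm {c : ℂ} (hc : c ≠ 0) {X : Mn n} (d : X.det ≠ 0) : (c • X)⁻¹ = c⁻¹ • X⁻¹ :=
  inv_eq_left_inv (by
    rw [smul_mul_smul_comm, nonsing_inv_mul _ d.isUnit, inv_mul_cancel₀ hc, one_smul])

theorem det_inv_ne (d : h.det ≠ 0) : h⁻¹.det ≠ 0 := (isUnit_nonsing_inv_det _ d.isUnit).ne_zero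

theorem det_mul_ne (d : h.det ≠ 0) (d' : M.det ≠ 0) : (h * M).det ≠ 0 := by
  rw [det_mul]; exact mul_ne_zero d d'

/-- the scalar can be chosen to be nonzero -/
theorem ex_ne {X Y : Mn n} {c : ℂ} (e : X = c • Y) (d : X.det ≠ 0) :
    ∃ c : ℂ, c ≠ 0 ∧ X = c • Y := by
  rcases Nat.eq_zero_or_pos n with rfl | hn
  · exact ⟨1, one_ne_zero, Subsingleton.elim _ _⟩
  exact ⟨c, fun a => d (by rw [e, det_sm, a, zero_pow hn.ne', zero_mul]), e⟩

theorem ex_ent (hn : 0 < n) (d : M.det ≠ 0) : ∃ i j, M i j ≠ 0 := by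
  by_contra! c
  haveI : Nonempty (Fin n) := ⟨⟨0, hn⟩⟩
  exact d (by rw [show M = 0 from Matrix.ext c, det_zero])

/-- the entries as linear maps -/
def ent (i j : Fin n) : Mn n →L[ℂ] ℂ :=
  LinearMap.toContinuousLinearMap (Matrix.entryLinearMap ℂ ℂ i j)

theorem ev_det (hf : ContinuousAt F w) (d : (F w).det ≠ 0) : ∀ᶠ v in 𝓝 w, (F v).det ≠ 0 :=
  ((continuous_id.matrix_det.continuousAt (x := F w)).comp hf).eventually_ne d

/-- solutions of `X' = c X` are projectively constant -/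
theorem proj_of (hX : AnalyticAt ℂ F w) (d : (F w).det ≠ 0)
    (e : ∀ᶠ v in 𝓝 w, ∃ c : ℂ, deriv F v = c • F v) : ∀ᶠ v in 𝓝 w, ∃ c : ℂ, F v = c • F w := by
  rcases Nat.eq_zero_or_pos n with rfl | hn
  · exact Eventually.of_forall fun _ => ⟨1, Subsingleton.elim _ _⟩
  obtain ⟨i, j, h0⟩ := ex_ent hn d
  have hs : AnalyticAt ℂ (fun v => ent i j (F v)) w := ((ent i j).analyticAt _).comp hX
  have hn : ∀ᶠ v in 𝓝 w, ent i j (F v) ≠ 0 := hs.continuousAt.eventually_ne h0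
  have hY : ∀ᶠ v in 𝓝 w, HasDerivAt (fun v => (ent i j (F v))⁻¹ • F v) 0 v := by
    filter_upwards [hX.eventually_analyticAt, hn, e] with v b1 b2 ⟨c, b3⟩
    have D : HasDerivAt F (c • F v) v := b3 ▸ b1.differentiableAt.hasDerivAt
    have := (((ent i j).hasFDerivAt.comp_hasDerivAt v D).inv b2).smul D
    refine this.congr_deriv ?_
    have b4 : F v i j ≠ 0 := b2
    show (F v i j)⁻¹ • c • F v + (-(c * F v i j) / F v i j ^ 2) • F v = 0
    rw [smul_smul, ← add_smul, show (F v i j)⁻¹ * c + -(c * F v i j) / F v i j ^ 2 = 0 by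
      field_simp; ring, zero_smul]
  obtain ⟨r, r0, hr⟩ := Metric.eventually_nhds_iff_ball.1 hY
  filter_upwards [ball_mem_nhds w r0, hn] with v b1 b2
  have := isOpen_ball.is_const_of_deriv_eq_zero (convex_ball w r).isPreconnected
    (fun y b => (hr y b).differentiableAt.differentiableWithinAt) (fun y b => (hr y b).deriv) b1
    (mem_ball_self r0)
  refine ⟨ent i j (F v) * (ent i j (F w))⁻¹, ?_⟩
  rw [mul_smul, ← this, smul_inv_smul₀ b2]

theorem PH.proj (p : PH a Φ w) (q : PH a Ψ w) :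
    ∀ᶠ v in 𝓝 w, ∃ c : ℂ, (Φ v)⁻¹ * Ψ v = c • ((Φ w)⁻¹ * Ψ w) := by
  refine proj_of (F := fun v => (Φ v)⁻¹ * Ψ v) ((an_inv p.an p.det).mul q.an)
    (det_mul_ne (det_inv_ne p.det) q.det) ?_
  filter_upwards [p.an.eventually_analyticAt, q.an.eventually_analyticAt, p.eq, q.eq,
    ev_det p.an.continuousAt p.det] with v b1 b2 ⟨c, b3⟩ ⟨c', b4⟩ b5
  refine ⟨c' - c, ?_⟩
  rw [dmul (an_inv b1 b5) b2, deriv_minv b1 b5, eq_sub_of_add_eq b3, eq_sub_of_add_eq b4]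
  simp only [Matrix.mul_sub, Matrix.sub_mul, Matrix.mul_smul, Matrix.smul_mul, Matrix.neg_mul,
    Matrix.mul_assoc, mul_nonsing_inv_cancel_left _ _ b5.isUnit, mul_nonsing_inv _ b5.isUnit,
    Matrix.mul_one]
  module

theorem PF.cont (p : PF a F w) : ∀ᶠ v in 𝓝 w, ContinuousAt F v := by
  obtain ⟨s, Φ, b1, b2, b3⟩ := p
  filter_upwards [b1, b2.an.eventually_analyticAt, b3.eventuallyEq_nhds] with v c1 c2 c3
  exact (c1.smul c2.continuousAt).congr c3.symm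

theorem PH.pf (p : PH a Φ w) : PF a Φ w := ⟨fun _ => 1, Φ,
  Eventually.of_forall fun _ => continuousAt_const, p, Eventually.of_forall fun _ => (one_smul _ _).symm⟩

theorem PF.proj (p : PF a F w) (q : PF a F' w) (d : (F w).det ≠ 0) (d' : (F' w).det ≠ 0) :
    ∀ᶠ v in 𝓝 w, ∃ c : ℂ, (F v)⁻¹ * F' v = c • ((F w)⁻¹ * F' w) := by
  rcases Nat.eq_zero_or_pos n with rfl | hn
  · exact Eventually.of_forall fun _ => ⟨1, Subsingleton.elim _ _⟩
  have e := ev_det (PF.cont p).self_of_nhds d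
  obtain ⟨s, Φ, -, b2, b3⟩ := p
  obtain ⟨s', Ψ, -, b2', b3'⟩ := q
  have k : ∀ {c : ℂ} {X Y : Mn n}, X = c • Y → X.det ≠ 0 → c ≠ 0 := fun e d a =>
    d (by rw [e, det_sm, a, zero_pow hn.ne', zero_mul])
  have s0 := k b3.self_of_nhds d
  have s0' := k b3'.self_of_nhds d'
  filter_upwards [PH.proj b2 b2', b3, b3', e, ev_det b2.an.continuousAt b2.det]
    with v ⟨c, c1⟩ c2 c3 c4 c5
  have s1 := k c2 c4
  refine ⟨(s v)⁻¹ * s' v * c * (s w * (s' w)⁻¹), ?_⟩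
  rw [c2, c3, b3.self_of_nhds, b3'.self_of_nhds, inv_sm s1 c5, inv_sm s0 b2.det,
    smul_mul_smul_comm, smul_mul_smul_comm, c1, smul_smul, smul_smul]
  congr 1
  field_simp

/-- projectively constant with constant determinant -/
theorem lc_of {X : Type} [TopologicalSpace X] {x : X} {f : X → Mn n} (hf : ContinuousAt f x)
    (d : (f x).det ≠ 0) (e : ∀ᶠ y in 𝓝 x, ∃ c : ℂ, f y = c • f x)
    (e' : ∀ᶠ y in 𝓝 x, (f y).det = (f x).det) : ∀ᶠ y in 𝓝 x, f y = f x := by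
  rcases Nat.eq_zero_or_pos n with rfl | hn
  · exact Eventually.of_forall fun _ => Subsingleton.elim _ _
  obtain ⟨i, j, h0⟩ := ex_ent hn d
  have hs : Tendsto (fun y => f y i j / f x i j) (𝓝 x) (𝓝 1) := by
    rw [← div_self h0]
    exact (((ent i j).continuous.continuousAt.comp hf).div_const _)
  have fin : ({c : ℂ | c ^ n = 1} \ {1}).Finite :=
    ((Polynomial.nthRoots n (1 : ℂ)).finite_toSet.subset
      fun c hc => (Polynomial.mem_nthRoots hn).2 hc).diff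
  filter_upwards [hs (fin.isClosed.isOpen_compl.mem_nhds fun a => a.2 rfl), e, e']
    with y b1 ⟨c, b2⟩ b3
  rw [b2, det_sm, mul_left_eq_self₀, or_iff_left d] at b3
  have : f y i j / f x i j = c := by rw [b2]; exact mul_div_cancel_right₀ c h0
  rw [mem_preimage, this] at b1
  have : c = 1 := by
    by_contra b4
    exact b1 ⟨b3, b4⟩
  rw [b2, this, one_smul]

theorem PF.congr (p : PF a F w) (e : a' =ᶠ[𝓝 w] a) (e' : F' =ᶠ[𝓝 w] F) : PF a' F' w := by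
  obtain ⟨s, Φ, b1, b2, b3⟩ := p
  refine ⟨s, Φ, b1, ⟨b2.an, b2.det, ?_⟩, e'.trans b3⟩
  filter_upwards [b2.eq, e] with v c1 c2
  rwa [c2]

theorem PF.smul (p : PF a F w) {f : ℂ → ℂ} (hf : ∀ᶠ v in 𝓝 w, ContinuousAt f v) :
    PF a (fun v => f v • F v) w := by
  obtain ⟨s, Φ, b1, b2, b3⟩ := p
  refine ⟨fun v => f v * s v, Φ, (hf.and b1).mono fun v c => c.1.mul c.2, b2, b3.mono fun v c => ?_⟩
  simp only [c, smul_smul]

theorem PF.lmul (p : PF a F w) (hφ : AnalyticAt ℂ φ w) (d : (φ w).det ≠ 0)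
    (e : ∀ᶠ v in 𝓝 w, ∃ c : ℂ, deriv φ v + a' v * φ v = φ v * a v + c • φ v) :
    PF a' (fun v => φ v * F v) w := by
  obtain ⟨s, Φ, b1, b2, b3⟩ := p
  refine ⟨s, fun v => φ v * Φ v, b1, ⟨hφ.mul b2.an, det_mul_ne d b2.det, ?_⟩,
    b3.mono fun v c => by simp only [c, Matrix.mul_smul]⟩
  filter_upwards [hφ.eventually_analyticAt, b2.an.eventually_analyticAt, b2.eq, e]
    with v c1 c2 ⟨c, c3⟩ ⟨c', c4⟩
  refine ⟨c + c', ?_⟩
  rw [dmul c1 c2, eq_sub_of_add_eq c3, eq_sub_of_add_eq c4]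
  simp only [Matrix.mul_sub, Matrix.sub_mul, Matrix.add_mul, Matrix.mul_smul, Matrix.smul_mul,
    Matrix.mul_assoc]
  module

theorem PF.rmul (p : PF a F w) (d : M.det ≠ 0) : PF a (fun v => F v * M) w := by
  obtain ⟨s, Φ, b1, b2, b3⟩ := p
  refine ⟨s, fun v => Φ v * M, b1, ⟨b2.an.mul analyticAt_const, det_mul_ne b2.det d, ?_⟩,
    b3.mono fun v c => by simp only [c, Matrix.smul_mul]⟩
  filter_upwards [b2.an.eventually_analyticAt, b2.eq] with v c2 ⟨c, c3⟩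
  refine ⟨c, ?_⟩
  rw [dmul c2 analyticAt_const, dconst, Matrix.mul_zero, add_zero, ← Matrix.mul_assoc,
    ← Matrix.add_mul, c3, Matrix.smul_mul]

end Vale.Agent.P275RI
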