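import Vale.Agent.P275RI.Bas
import Vale.Agent.P275RL.Pf
import Vale.Agent.P275RH.Mer

/-!
P275 (helper16): comparison of frames, the normalisation.
-/

set_option linter.all false

open scoped Topology Real Matrix.Norms.Operator
open Filter Set Metric Complex
open Vale.Agent.P275GC (At)
open Vale.Agent.P275GC.At
open Vale.Agent.P275NA (Cy Fm Mn)
open Vale.Agent.P275ST (Pc)
open Vale.Agent.P275RH (cwd Oc Lc Fs PQ hol)
open Vale.Agent.P275MO Vale.Agent.P275Z Vale.Agent.P275RL Vale.Agent.P275MB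

noncomputable section

namespace Vale.Agent.P275RI

variable {C : Type} [TopologicalSpace C] {n g : ℕ} {ρ ρ' : Tup g n} {h : Mn n}

/-- flat sections of the bundle of maps -/
theorem hol_semi {Y ι κ : Type} [TopologicalSpace Y] {U : ι → Set Y} {U' : κ → Set Y}
    {c : ι → ι → Y → Fg g} {c' : κ → κ → Y → Fg g} (hc : P275RH.Cy U c) (hc' : P275RH.Cy U' c')
    {M : ι → κ → Y → Mn n} (lc : ∀ k m, Lc (U k ∩ U' m) (M k m))
    (tr : ∀ k k' m m' y, y ∈ U k → y ∈ U k' → y ∈ U' m → y ∈ U' m' →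
      wv ρ' (c' m m' y) * M k' m' y = M k m y * wv ρ (c k k' y)) {x y : Y} (γ : PQ x y) :
    ∀ k m k' m', x ∈ U k → x ∈ U' m → y ∈ U k' → y ∈ U' m' →
      wv ρ' (hol U' c' γ m m') * M k m x = M k' m' y * wv ρ (hol U c γ k k') := by
  refine (hc.toOc.inter hc'.toOc).ind (P := fun x y γ => ∀ k m k' m', x ∈ U k → x ∈ U' m →
    y ∈ U k' → y ∈ U' m' → wv ρ' (hol U' c' γ m m') * M k m x =
      M k' m' y * wv ρ (hol U c γ k k')) (fun i x y γ hγ k m k' m' a1 a2 a3 a4 => ?_)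
    (fun x y z γ δ a b k m k' m' a1 a2 a3 a4 => ?_) γ
  · have b1 := γ.source ▸ hγ 0
    have b2 := γ.target ▸ hγ 1
    rw [hc.hol_loc γ (fun t => (hγ t).1) a1 a3, hc'.hol_loc γ (fun t => (hγ t).2) a2 a4, wv_mul,
      wv_mul, mul_assoc, tr _ _ _ _ x b1.1 a1 b1.2 a2, ← (lc _ _).path γ hγ, ← mul_assoc,
      tr _ _ _ _ y a3 b2.1 a4 b2.2, mul_assoc]
  · obtain ⟨i, hi⟩ := hc.cov y
    obtain ⟨j, hj⟩ := hc'.cov y
    rw [hc.hol_trans hi, hc'.hol_trans hj, wv_mul, wv_mul, mul_assoc, a k m i j a1 a2 hi hj,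
      ← mul_assoc, b i j k' m' hi hj a3 a4, mul_assoc]

variable {A : At C} {l : Cy A ℂ} {d : ℤ} {P : Loc A l g n d} {x x' : C} {hx : x ∈ P.V}
  {hx' : x' ∈ P.V} {a a' φ : Fm A (Mn n)} {γ γ' : Cy A (Mn n)} {F F' : P.ι → Fm A (Mn n)}
  {z z' : Dat C A.N n} {G : ℂ → Mn n} {r : ℝ} {h1 : 1 < r} {h2 : r ≤ A.R}

/-- `Frm` in terms of the pole, the connection and the cocycle -/
structure Fr (P : Loc A l g n d) {x : C} (hx : x ∈ P.V) (a : Fm A (Mn n)) (γ : Cy A (Mn n))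
    (ρ : Tup g n) (F : P.ι → Fm A (Mn n)) : Prop where
  pf : ∀ (y : Pc x) k j, fib hx y ∈ P.U k → InU A j y → PF (a j) (F k j) (A.e j y)
  det : ∀ (y : Pc x) k j, fib hx y ∈ P.U k → InU A j y → (F k j (A.e j y)).det = P.u x j (A.e j y)
  chg : ∀ (y : Pc x) k j j', fib hx y ∈ P.U k → InU A j y → InU A j' y →
    F k j (A.e j y) = γ j j' (A.e j y) * F k j' (A.e j' y)
  coc : ∀ (y : Pc x) k m j, fib hx y ∈ P.U k → fib hx y ∈ P.U m → InU A j y →
    F m j (A.e j y) = F k j (A.e j y) * wv ρ (P.c k m (fib hx y))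

theorem fr_of {hz : z.x ∈ P.V} (f : Frm P z hz ρ F) (e : z.x = x) (hx : x ∈ P.V) :
    Fr P hx z.a z.g ρ F := by
  subst e
  exact ⟨f.pf, f.det, f.chg, f.coc⟩

theorem Fr.frm {hz : z.x ∈ P.V} (f : Fr P hz z.a z.g ρ F) : Frm P z hz ρ F :=
  ⟨f.pf, f.det, f.chg, f.coc⟩

theorem inU_off {j : Fin A.N} {y : C} (b : InU A j y) (c : y ≠ x) : A.e j y ∈ off A x j :=
  ⟨map_src b.1, by rwa [(A.e j).left_inv b.1]⟩

theorem Fr.ne (f : Fr P hx a γ ρ F) {y : Pc x} {k j} (b : fib hx y ∈ P.U k) (c : InU A j y) :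
    (F k j (A.e j y)).det ≠ 0 := by
  rw [f.det y k j b c]
  exact P.un x hx j _ (inU_off c y.2)

theorem Fr.act (f : Fr P hx a γ ρ F) (e : Cj h ρ ρ') {κ : ℂ} (k1 : κ ^ n * h.det = 1) :
    Fr P hx a γ ρ' fun k j w => κ • (F k j w * h) := by
  have d0 : h.det ≠ 0 := right_ne_zero_of_mul_eq_one k1
  refine ⟨fun y k j b c => ((f.pf y k j b c).mul d0).smul
    (Eventually.of_forall fun _ => continuousAt_const), fun y k j b c => ?_,
    fun y k j j' b c c' => ?_, fun y k m j b b' c => ?_⟩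
  · rw [det_sm, Matrix.det_mul, f.det y k j b c, mul_left_comm, k1, mul_one]
  · rw [f.chg y k j j' b c c', mul_assoc, mul_smul_comm]
  · rw [f.coc y k m j b b' c, cj_wv d0 e, smul_mul_assoc]
    simp only [mul_assoc, mul_inv_can d0]

/-- a chart whose unit disc contains `y` -/
def pk (A : At C) (y : C) : Fin A.N := (A.cov y).choose

theorem pk_inU (A : At C) (y : C) : InU A (pk A y) y := (A.cov y).choose_spec

theorem ct_e {Y : Type} [TopologicalSpace Y] {p : Y → C} {y : Y} (hp : ContinuousAt p y)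
    {j : Fin A.N} (b : InU A j (p y)) : ContinuousAt (fun t => A.e j (p t)) y :=
  ((A.e j).continuousAt b.1).comp hp

/-- **comparison of two systems of frames** -/
theorem cmp {Y : Type} [TopologicalSpace Y] (q : C(Y, Pc x)) (q' : C(Y, Pc x'))
    (e : ∀ y, (q' y).1 = (q y).1) (f : Fr P hx a γ ρ F) (f' : Fr P hx' a' γ' ρ' F')
    (an : ∀ y j, InU A j (q y) → AnalyticAt ℂ (φ j) (A.e j (q y)) ∧ ∀ᶠ v in 𝓝 (A.e j (q y)),
      ∃ c : ℂ, deriv (φ j) v + a' j v * φ j v = φ j v * a j v + c • φ j v)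
    (law : ∀ y j j', InU A j (q y) → InU A j' (q y) → φ j (A.e j (q y)) * γ j j' (A.e j (q y)) =
      γ' j j' (A.e j (q y)) * φ j' (A.e j' (q y))) {t : Y → ℂ} (ht : Continuous t)
    (dt : ∀ y j, InU A j (q y) → t y ^ n * ((φ j (A.e j (q y))).det * P.u x j (A.e j (q y))) =
      P.u x' j (A.e j (q y))) : ∃ M : P.ι → P.ι → Y → Mn n,
    (∀ k m y j, fib hx (q y) ∈ P.U k → fib hx' (q' y) ∈ P.U m → InU A j (q y) → (M k m y).det = 1 ∧
      F' m j (A.e j (q y)) * M k m y = t y • (φ j (A.e j (q y)) * F k j (A.e j (q y)))) ∧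
    ∀ (y y' : Y) (ω : PQ y y') k m k' m', fib hx (q y) ∈ P.U k → fib hx' (q' y) ∈ P.U m →
      fib hx (q y') ∈ P.U k' → fib hx' (q' y') ∈ P.U m' →
      wv ρ' (hol P.U P.c (ω.map ((fib hx').comp q')) m m') * M k m y =
        M k' m' y' * wv ρ (hol P.U P.c (ω.map ((fib hx).comp q)) k k') := by
  let N : P.ι → P.ι → Y → Fin A.N → Mn n := fun k m y j =>
    t y • ((F' m j (A.e j (q y)))⁻¹ * (φ j (A.e j (q y)) * F k j (A.e j (q y))))
  have d' : ∀ m y j, fib hx' (q' y) ∈ P.U m → InU A j (q y) → (F' m j (A.e j (q y))).det =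
      P.u x' j (A.e j (q y)) ∧ (F' m j (A.e j (q y))).det ≠ 0 := fun m y j b c => by
    rw [← e] at c ⊢
    exact ⟨f'.det _ m j b c, f'.ne b c⟩
  have e1 : ∀ k m y j j', fib hx (q y) ∈ P.U k → fib hx' (q' y) ∈ P.U m → InU A j (q y) →
      InU A j' (q y) → F' m j (A.e j (q y)) * N k m y j' =
        t y • (φ j (A.e j (q y)) * F k j (A.e j (q y))) := fun k m y j j' b b' c c' => by
    have := f'.chg (q' y) m j j' b' (e y ▸ c) (e y ▸ c')
    rw [e] at this
    rw [this, f.chg _ k j j' b c c', ← mul_assoc (φ j _), law y j j' c c', mul_smul_comm]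
    simp only [mul_assoc, mul_inv_can (d' m y j' b' c').2]
  have e2 : ∀ k m y j j', fib hx (q y) ∈ P.U k → fib hx' (q' y) ∈ P.U m → InU A j (q y) →
      InU A j' (q y) → N k m y j' = N k m y j := fun k m y j j' b b' c c' => by
    rw [← inv_mul_can (d' m y j b' c).2 (N k m y j'), e1 k m y j j' b b' c c', mul_smul_comm]
  have e3 : ∀ k m y j, fib hx (q y) ∈ P.U k → fib hx' (q' y) ∈ P.U m → InU A j (q y) →
      (N k m y j).det = 1 := fun k m y j b b' c => by
    have := congrArg Matrix.det (e1 k m y j j b b' c c)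
    rw [det_sm, Matrix.det_mul, Matrix.det_mul, f.det _ k j b c, dt y j c, ← (d' m y j b' c).1]
      at this
    exact (mul_right_eq_self₀.1 this).resolve_right (d' m y j b' c).2
  have o := P.cy.toOc.pre ((fib hx).comp q)
  have o' := P.cy.toOc.pre ((fib hx').comp q')
  refine ⟨fun k m y => N k m y (pk A (q y)), fun k m y j b b' c =>
    ⟨e3 k m y _ b b' (pk_inU A _), e1 k m y j _ b b' c (pk_inU A _)⟩,
    fun y y' ω k m k' m' b1 b2 b3 b4 => ?_⟩
  rw [← P.cy.hol_pull (r := fun k => k) o (fun _ _ h => h) ω b1 b3,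
    ← P.cy.hol_pull (r := fun k => k) o' (fun _ _ h => h) ω b2 b4]
  refine hol_semi (P.cy.pull (r := fun k => k) o fun _ _ h => h) (P.cy.pull (r := fun k => k) o' fun _ _ h => h)
    (M := fun k m y => N k m y (pk A (q y))) (fun k m y b => ?_) (fun k k' m m' y c1 c2 c3 c4 => ?_)
    ω k m k' m' b1 b2 b3 b4
  · have c := pk_inU A (q y)
    have hq : ContinuousAt (fun s => (q s).1) y := (continuous_subtype_val.comp q.2).continuousAt
    have ce := ct_e hq c
    have d1 : (φ (pk A (q y)) (A.e (pk A (q y)) (q y))).det ≠ 0 := fun s =>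
      (d' m y _ b.2 c).2 (by rw [(d' m y _ b.2 c).1, ← dt y _ c, s, zero_mul, mul_zero])
    have p := (f.pf _ k _ b.1 c).map (an y _ c).1 d1 (an y _ c).2
    have p' := f'.pf _ m _ b.2 (e y ▸ c)
    rw [e] at p'
    have ev : ∀ᶠ s in 𝓝 y, (fib hx (q s) ∈ P.U k ∧ fib hx' (q' s) ∈ P.U m) ∧
        InU A (pk A (q y)) (q s) := (((o.opn k).inter (o'.opn m)).eventually_mem b).and
      (hq.eventually ((inU_open A _).eventually_mem c))
    have := lc_of (f := fun s => N k m s (pk A (q y))) (ht.continuousAt.smul ((((ca_inv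
      (d' m y _ b.2 c).2).comp p'.cont).mul p.cont).comp_of_eq ce rfl))
      (by rw [e3 k m y _ b.1 b.2 c]; exact one_ne_zero) ?_
      (ev.mono fun s v => by rw [e3 k m y _ b.1 b.2 c, e3 k m s _ v.1.1 v.1.2 v.2])
    · filter_upwards [this, ev] with s v1 v2
      exact (e2 k m s _ _ v2.1.1 v2.1.2 v2.2 (pk_inU A _)).trans v1
    · rcases Nat.eq_zero_or_pos n with rfl | hn
      · exact Eventually.of_forall fun _ => ⟨1, Subsingleton.elim _ _⟩
      have t0 : t y ≠ 0 := fun s => (d' m y _ b.2 c).2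
        (by rw [(d' m y _ b.2 c).1, ← dt y _ c, s, zero_pow hn.ne', zero_mul])
      filter_upwards [ce.eventually (PF.proj p' p (d' m y _ b.2 c).2
        (det_mul_ne d1 (f.ne b.1 c)))] with s ⟨v, hv⟩
      refine ⟨t s * v * (t y)⁻¹, ?_⟩
      simp only [N]
      rw [hv, smul_smul, smul_smul, inv_mul_cancel_right₀ t0]
  · have c := pk_inU A (q y)
    have := f'.coc (q' y) m m' _ c3 c4 (e y ▸ c)
    rw [e] at this
    rw [← inv_mul_can (d' m y _ c3 c).2 (_ * N k' m' y _), ← mul_assoc (F' m _ _)]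
    erw [← this]
    rw [e1 k' m' y _ _ c2 c4 c c, f.coc _ k k' _ c1 c2 c]
    simp only [N, mul_smul_comm, smul_mul_assoc, mul_assoc]
    rfl

end Vale.Agent.P275RI
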