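import Vale.Agent.P275RI.Cmp
import Vale.Agent.P275RL.Chg

/-!
P275 (helper16): the blocks ACT, ISO, OFFR.
-/

set_option linter.all false

open scoped Topology Real Matrix.Norms.Operator
open Filter Set Metric Complex
open Vale.Agent.P275GC (At)
open Vale.Agent.P275GC.At
open Vale.Agent.P275NA (Cy Fm Mn)
open Vale.Agent.P275ST (Pc)
open Vale.Agent.P275RH (cwd Oc Lc Fs PQ hol)
open Vale.Agent.P275MO Vale.Agent.P275Z Vale.Agent.P275RL Vale.Agent.P275MB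

noncomputable section

namespace Vale.Agent.P275RI

variable {C : Type} [TopologicalSpace C] {n g : ℕ} {ρ ρ' : Tup g n} {h : Mn n}
  {A : At C} {l : Cy A ℂ} {d : ℤ} {P : Loc A l g n d} {φ : Fm A (Mn n)}
  {F F' : P.ι → Fm A (Mn n)} {z z' : Dat C A.N n} {G G' : ℂ → Mn n} {r : ℝ} {h1 : 1 < r}
  {h2 : r ≤ A.R} {j : Fin A.N} {δ : ℝ}

theorem ex_cj (R : Mn n) (d0 : h.det ≠ 0) (w : ℂ) : ex (h⁻¹ * R * h) w = h⁻¹ * ex R w * h := by
  have := ex_conj R (det_inv_ne d0) w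
  rwa [inv_inv' d0] at this

theorem fill_act (d0 : h.det ≠ 0) : fill A (z.act h) j = fill A z j := funext fun w => by
  have : z.σ j * h * (h⁻¹ * z.R * h) * (z.σ j * h)⁻¹ = z.σ j * z.R * (z.σ j)⁻¹ := by
    simp only [Matrix.mul_inv_rev, mul_assoc, mul_inv_can d0]
  simp only [fill, Dat.act, this]
  rfl

theorem isG_act (i : IsG A z j δ G) (d0 : h.det ≠ 0) : IsG A (z.act h) j δ fun w => G w * h := by
  refine ⟨?_, congrArg (· * h) i.2⟩
  rw [fill_act d0]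
  exact i.1.mul (Hz.const fun _ _ => by simp only [Dat.act, mul_assoc, mul_inv_can d0])

theorem pre_act (p : Pre A l d z) (d0 : h.det ≠ 0) : Pre A l d (z.act h) :=
  let ⟨r, h1, h2, b⟩ := p.good
  ⟨⟨r, h1, h2, Good.act (A := A.res r h1 h2) b d0⟩, p.lam, gen_conj' p.gen d0⟩

theorem ex_kap (d0 : h.det ≠ 0) : ∃ κ : ℂ, κ ^ n * h.det = 1 := by
  obtain ⟨κ, -, e⟩ := ex_root (n := n) (inv_ne_zero d0) fun e => by
    subst e
    rw [Matrix.det_isEmpty, inv_one]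
  exact ⟨κ, by rw [e, inv_mul_cancel₀ d0]⟩

/-- **ACT** -/
theorem act (P : Loc A l g n d) : ACT P := by
  rintro z ρ ρ' h ⟨p, hx, F, f, G, i, N⟩ d0 e
  obtain ⟨κ, k1⟩ := ex_kap d0
  refine ⟨pre_act p d0, hx, _, Fr.frm (z := z.act h) ((fr_of f rfl hx).act e k1), _, isG_act i d0,
    fun q k a b => ?_⟩
  obtain ⟨t, ht⟩ := N q k a b
  refine ⟨κ * t, ?_⟩
  show κ • (F k P.a (A.e P.a z.x + exp q.1.2) * h) * _ =
    _ • (G (A.e P.a z.x + exp q.1.2) * h * ex (h⁻¹ * z.R * h) _)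
  rw [cj_wv d0 e, ex_cj _ d0, mul_smul]
  have := congrArg (fun X => κ • (X * h)) ht
  simpa only [smul_mul_assoc, mul_assoc, mul_inv_can d0] using this

theorem good2 (p : Pre A l d z) (p' : Pre A l d z') (h1 : 1 < r) (h2 : r ≤ A.R) :
    ∃ (s : ℝ) (b1 : 1 < s) (b2 : s ≤ r), Good (A.res s b1 (b2.trans h2)) l z ∧
      Good (A.res s b1 (b2.trans h2)) l z' := by
  obtain ⟨s, b1, b2, b⟩ := p.good
  obtain ⟨s', b1', b2', b'⟩ := p'.good
  exact ⟨min r (min s s'), lt_min h1 (lt_min b1 b1'), min_le_left _ _,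
    Good.mono b _ ((min_le_right _ _).trans (min_le_left _ _)),
    Good.mono b' _ ((min_le_right _ _).trans (min_le_right _ _))⟩

/-- the conjugation is read at one point near the pole -/
theorem key (S : Std A l n d) (hz : Good (A.res r h1 h2) l z) (hz' : Good (A.res r h1 h2) l z')
    (R : Rel P z ρ) (R' : Rel P z' ρ') (ex : z'.x = z.x) {κ : ℂ} (κ0 : κ ≠ 0)
    (hφ : ∀ y j, y ≠ z.x → InU A j y → AnalyticAt ℂ (φ j) (A.e j y) ∧ (φ j (A.e j y)).det = κ ∧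
      (∃ c : ℂ, deriv (φ j) (A.e j y) + z'.a j (A.e j y) * φ j (A.e j y) =
        φ j (A.e j y) * z.a j (A.e j y) + c • φ j (A.e j y)) ∧ ∀ j', InU A j' y →
        φ j (A.e j y) * z.g j j' (A.e j y) = z'.g j j' (A.e j y) * φ j' (A.e j' y))
    (e : ∀ G G', InU A P.a z.x → IsG A z P.a P.δ G → IsG A z' P.a P.δ G' →
      ∀ᶠ w in 𝓝[≠] (A.e P.a z.x), ∀ L, w = A.e P.a z.x + exp L → ∃ t : ℂ,
        φ P.a w * (G w * P275RL.ex z.R (-L)) = t • (G' w * P275RL.ex z'.R (-L) * h)) :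
    Cj h ρ' ρ := by
  obtain ⟨p, hx, F, f, G, i, N⟩ := R
  obtain ⟨p', hx', F', f', G', i', N'⟩ := R'
  obtain ⟨M, m1, m2, m3⟩ := f.cmp S f' ex κ0 (fun y j j' _ a b =>
    g_det_ne (A := A.res r h1 h2) hz' (InU.O a b)) hφ
  obtain ⟨w, ⟨w1, w2⟩, w3⟩ := (((e G G' (P.inU hx) i i').and
    (nhdsWithin_le_nhds (ball_mem_nhds _ P.hδ))).and self_mem_nhdsWithin).exists
  have w4 : w - A.e P.a z.x ≠ 0 := sub_ne_zero.2 w3
  have w5 : w = A.e P.a z.x + exp (log (w - A.e P.a z.x)) := by rw [exp_log w4, add_sub_cancel]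
  let q : Nd P.V P.δ := ⟨(z.x, log (w - A.e P.a z.x)), hx,
    (exp_mem_ball P.hδ).1 (add_mem_ball.1 (w5 ▸ w2))⟩
  obtain ⟨k, hk⟩ := P.cy.cov (P.ν q)
  obtain ⟨t, ht⟩ := w1 _ w5
  obtain ⟨s, hs⟩ := N q k rfl hk
  obtain ⟨s', hs'⟩ := N' q k ex.symm hk
  have hy := P.fib_pc q rfl hx ▸ hk
  have m4 := m3 (P.pc q rfl) k P.a hy (P.ν_e q).1
  have d1 := f'.det_ne (y := P.pc q ex.symm) (P.fib_pc q ex.symm hx' ▸ hk) (P.ν_e q).1
  have e1 : A.e P.a (P.ν q).1.2 = w := (P.ν_e q).2.trans w5.symm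
  change (F' k P.a (A.e P.a (P.ν q).1.2)).det ≠ 0 at d1
  change φ P.a (A.e P.a (P.ν q).1.2) * F k P.a (A.e P.a (P.ν q).1.2) =
    F' k P.a (A.e P.a (P.ν q).1.2) * M at m4
  rw [e1] at d1 m4
  rw [ex] at hs'
  change F k P.a (_ + exp (log _)) * _ = s • (G (_ + exp (log _)) * P275RL.ex _ (-log _)) at hs
  change F' k P.a (_ + exp (log _)) * _ = s' • (G' (_ + exp (log _)) * P275RL.ex _ (-log _)) at hs'
  rw [← w5] at hs hs'
  obtain ⟨s'', s0, hs'⟩ := ex_ne hs' (det_mul_ne d1 (wv_ne _ _))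
  have d2 : (G' w * P275RL.ex z'.R (-log (w - A.e P.a z.x))).det ≠ 0 := fun b =>
    det_mul_ne d1 (wv_ne ρ' (P.b k q)) (by rw [hs', det_sm, b, mul_zero])
  have : M = (s''⁻¹ * (s * t)) • h := by
    rw [mul_smul, eq_inv_smul_iff₀ s0, ← inv_mul_can d2 (s'' • M), mul_smul_comm, ← smul_mul_assoc,
      ← hs', mul_assoc, m2, ← mul_assoc (F' _ _ _), ← m4, mul_assoc, hs, mul_smul_comm, ht,
      smul_smul, mul_smul_comm, inv_mul_can d2]
  obtain ⟨c, c0, hc⟩ := ex_ne this (m1 ▸ κ0)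
  have d3 : h.det ≠ 0 := fun b => κ0 (by rw [← m1, hc, det_sm, b, mul_zero])
  refine cj_of d3 fun a => smul_right_injective _ c0 ?_
  have := m2 a
  rwa [hc, mul_smul_comm, smul_mul_assoc] at this

/-- **ISO** -/
theorem iso (S : Std A l n d) (P : Loc A l g n d) : ISO P := by
  intro z z' ρ ρ' r h1 h2 φ h R R' i
  haveI := S.t2
  haveI := S.conn
  obtain ⟨s, b1, b2, hz, hz'⟩ := good2 R.1 R'.1 h1 h2
  have f := IsoBy.mono i b1 b2
  have hl : (A.res s b1 (b2.trans h2)).Cc l := S.cc.res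
  obtain ⟨κ, hκ⟩ := det_const hl f.hol hz.det hz'.det f.law
  have b0 : (0 : ℂ) ∈ ball (0 : ℂ) s := mem_ball_self (one_pos.trans b1)
  have con := f.con
  simp only [R.1.lam, one_smul] at con
  refine key (A := A) S hz hz' R R' f.x (κ := κ) (φ := φ) (hκ P.a 0 b0 ▸ f.det P.a 0 b0) (fun y j a b => ?_)
    fun G G' u a b => ?_
  · have c := unit_r b1 b.2
    exact ⟨(f.hol j).analyticAt (isOpen_ball.mem_nhds c), hκ j _ c,
      ⟨0, by rw [zero_smul, add_zero]; exact con j _ (InU.off b a)⟩, fun j' b' => by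
        have := f.law j j' _ (InU.O b b')
        rwa [show (A.res s b1 (b2.trans h2)).tr j j' (A.e j y) = A.e j' y from tr_e (A := A) b.1] at this⟩
  · have c := isOpen_ball.mem_nhds (unit_r b1 u.2)
    have d0 := IsoBy.det_h hz f
    have eR := IsoBy.R hz hz' f
    have an := (f.hol P.a).analyticAt c
    have an' := a.an (mem_ball_self P.hδ)
    have u' : z'.x ∈ ((A.res s b1 (b2.trans h2)).e P.a).source := f.x ▸ (InU.res u)
    have := IsG.germ (A := A.res s b1 (b2.trans h2)) (H := fun v => φ P.a v * G v * h⁻¹) hz' R'.1.gen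
      u' P.hδ b (f.x ▸ (an.mul an').mul analyticAt_const) (by
        show φ P.a (A.e P.a z'.x) * G (A.e P.a z'.x) * h⁻¹ = _
        rw [f.x, a.2]
        exact (congrArg (· * h⁻¹) (f.fr P.a (InU.res u))).trans (by rw [mul_assoc, mul_inv' d0, mul_one]))
      (by
        show ∀ᶠ v in 𝓝[≠] (A.e P.a z'.x), _ + _ = (v - A.e P.a z'.x)⁻¹ • _
        rw [f.x]
        filter_upwards [off_ev (A := A.res s b1 (b2.trans h2)) (InU.res u), nhdsWithin_le_nhds
          an.eventually_analyticAt, nhdsWithin_le_nhds (ball_mem_nhds _ P.hδ), self_mem_nhdsWithin]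
          with v v1 v2 v3 v4
        have v5 := a.1.eq v v3
        have v6 : v - A.e P.a z.x ≠ 0 := sub_ne_zero.2 v4
        rw [fill_off (A := A) v1.2, smul_mul_assoc, ← smul_add, ← eq_inv_smul_iff₀ v6] at v5
        have v7 : HasDerivAt G _ v :=
          (a.an v3).differentiableAt.hasDerivAt.congr_deriv (eq_sub_of_add_eq v5)
        rw [dv (Φ := fun v => φ P.a v * G v * h⁻¹) (((hd v2).mul v7).mul_const h⁻¹),
          eq_sub_of_add_eq (con P.a v v1), eR]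
        simp only [mul_sub, sub_mul, add_mul, mul_smul_comm, smul_mul_assoc, mul_assoc,
          inv_mul_can d0]
        abel)
    rw [show (A.res s b1 (b2.trans h2)).e P.a z'.x = A.e P.a z.x from congrArg _ f.x] at this
    filter_upwards [nhdsWithin_le_nhds this] with w hw L _
    refine ⟨1, ?_⟩
    rw [one_smul, ← hw, eR, ex_conj _ d0]
    simp only [mul_assoc, inv_mul_can d0, inv_mul' d0, mul_one]

theorem ex_sw (R : Mn n) (a b : ℂ) : ex R a * ex R b = ex R b * ex R a := by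
  rw [← ex_add, ← ex_add, add_comm]

/-- germs of gauges in two charts -/
theorem chg (S : Std A l n d) (hz : Good (A.res r h1 h2) l z) (p : Pre A l d z) {x : C}
    (e : z.x = x) {i : Fin A.N} (hj : InU A j x) (hi : InU A i x) (δ0 : 0 < δ) (a : IsG A z j δ G)
    {H : ℂ → Mn n} (a1 : AnalyticAt ℂ H (A.e i x)) (a2 : H (A.e i x) = z.σ i)
    (a3 : ∀ᶠ w in 𝓝[≠] (A.e i x), deriv H w + z.a i w * H w = (w - A.e i x)⁻¹ • (H w * z.R))
    {η : ℂ → ℂ} (η1 : AnalyticAt ℂ η (A.e j x))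
    (η2 : ∀ᶠ v in 𝓝 (A.e j x), exp (η v) * (v - A.e j x) = A.tr j i v - A.e i x) :
    ∀ᶠ v in 𝓝 (A.e j x), ∃ t : ℂ, t ≠ 0 ∧ ∀ L, z.g j i v * (H (A.tr j i v) * ex z.R (-(η v + L))) =
      t • (G v * ex z.R (-L) * ex z.R (-η (A.e j x))) := by
  subst e
  haveI := S.t2
  obtain ⟨ε, ε0, hε⟩ := Metric.isOpen_iff.1 isOpen_ball _ (unit_r h1 hi.2)
  obtain ⟨K, hK⟩ := isG_ex (A := A.res r h1 h2) hz p.gen (InU.res hi) hε
  have b := IsG.germ (A := A.res r h1 h2) hz p.gen (InU.res hi) ε0 hK a1 a2 a3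
  obtain ⟨f, f1, f2, f3⟩ := IsG.chg (A := A.res r h1 h2) (two_pos.trans_le S.two).ne' hz p.lam
    p.gen (InU.res hj) (InU.res hi) δ0 ε0 a hK η1 η2
  have c := (an_tr (mem_O hj.1 hi.1)).continuousAt
  rw [ContinuousAt, tr_e hj.1] at c
  filter_upwards [f3, c.eventually b, f1.continuousAt.eventually_ne (f2 ▸ one_ne_zero)]
    with v v1 v2 v3
  refine ⟨f v, v3, fun L => ?_⟩
  have := congrArg (· * ex z.R (-L)) v1
  rw [v2, neg_add, ex_add, mul_assoc (G v), ex_sw z.R (-L)]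
  simp only [mul_assoc, smul_mul_assoc] at this ⊢
  exact this

/-- **OFFR** -/
theorem offr (S : Std A l n d) (P : Loc A l g n d) : OFFR P := by
  intro z z' ρ ρ' h R R' ⟨_, _, ex, r, h1, h2, φ, o1, o2, o3, i, hi, H, H', u, a1, a2, a3, a4, a5⟩
  haveI := S.t2
  obtain ⟨s, b1, b2, hz, hz'⟩ := good2 R.1 R'.1 h1 h2
  have hx : z.x ∈ P.V := R.2.choose
  have hO := mem_O (P.inU hx).1 hi.1
  obtain ⟨η, η1, η2⟩ := exists_eta (an_tr hO) (d_ne hO)
  rw [tr_e (j := i) (P.inU hx).1] at η2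
  refine ⟨-η (A.e P.a z.x), η (A.e P.a z.x), key (A := A) S hz hz' R R' ex (κ := 1) (φ := φ)
    one_ne_zero (fun y j a b => ?_) fun G G' v a b => ?_⟩
  · have c := InU.off (h1 := h1) (h2 := h2) b a
    exact ⟨(o1 j).analyticAt ((off_open _ _).mem_nhds c), (o2 j _ c).1, (o2 j _ c).2,
      fun j' b' => by
        have := o3 j j' _ (InU.O b b') c.2
        rwa [tr_e (A := A) b.1] at this⟩
  have c := tends_tr hO
  rw [tr_e (j := i) v.1] at c
  filter_upwards [nhdsWithin_le_nhds (chg S hz R.1 rfl v hi P.hδ a (P281Z.Hm.an_of a1) a3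
    (a5.mono fun _ e => e.1) η1 η2), nhdsWithin_le_nhds (chg S hz' R'.1 ex v hi P.hδ b
    (P281Z.Hm.an_of a2) a4 (a5.mono fun _ e => e.2.1) η1 η2), c.eventually a5,
    nhdsWithin_le_nhds η2, nhdsWithin_le_nhds (O_nhds (InU.O (h1 := h1) (h2 := h2) v hi)),
    off_ev v.1] with w ⟨t, t0, w1⟩ ⟨t', _, w2⟩ w3 w4 w5 w6 L e
  have w7 : φ i (A.tr P.a i w) * H (A.tr P.a i w) * P275RL.ex z.R (-(η w + L)) =
      u (A.tr P.a i w) • (H' (A.tr P.a i w) * P275RL.ex z'.R (-(η w + L)) * h) :=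
    w3.2.2 _ (by rw [exp_add, ← w4, e, add_sub_cancel_left])
  refine ⟨t⁻¹ * (u (A.tr P.a i w) * t'), ?_⟩
  have e1 := congrArg (fun X => φ P.a w * X * P275RL.ex z.R (η (A.e P.a z.x))) (w1 L)
  have e2 := congrArg (fun X => u (A.tr P.a i w) • (X * h * P275RL.ex z.R (η (A.e P.a z.x))))
    (w2 L)
  have e3 := congrArg (fun X => z'.g P.a i w * X * P275RL.ex z.R (η (A.e P.a z.x))) w7
  have e4 := congrArg (· * (H (A.tr P.a i w) * (P275RL.ex z.R (-(η w + L)) *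
    P275RL.ex z.R (η (A.e P.a z.x))))) (o3 P.a i w w5 w6.2)
  simp only [mul_assoc, smul_mul_assoc, mul_smul_comm, ex_neg_mul, mul_one] at e1 e2 e3 e4 ⊢
  rw [mul_smul, eq_inv_smul_iff₀ t0, mul_smul, ← e1, ← e2, ← e3, ← e4]

end Vale.Agent.P275RI
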