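import Vale.Agent.P275RI.Trn
import Vale.Agent.P275NP.Rep
import Vale.Agent.P275NU.Rel

/-!
P275 (helper16): the block MOV.
-/

set_option linter.all false

open scoped Topology Real Matrix.Norms.Operator
open Filter Set Metric
open Vale.Agent.P275GC (At)
open Vale.Agent.P275GC.At
open Vale.Agent.P275NA (Cy Fm Mn)
open Vale.Agent.P275ST (Pc)
open Vale.Agent.P275RH (cwd Oc Lc Fs PQ hol free_htp)
open Vale.Agent.P275NP (ea agr_ea hl_ea con_of_agr)
open Vale.Agent.P275MO Vale.Agent.P275Z Vale.Agent.P275RL Vale.Agent.P275MB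

noncomputable section

namespace Vale.Agent.P275RI

variable {C : Type} [TopologicalSpace C] {n g : ℕ} {ρ ρ' : Tup g n}
  {A : At C} {l : Cy A ℂ} {d : ℤ} {P : Loc A l g n d} {x x' y : C} {hx : x ∈ P.V}
  {a a' : Fm A (Mn n)} {γ : Cy A (Mn n)} {F : P.ι → Fm A (Mn n)} {j : Fin A.N}

/-- the ratio of the trivialisations -/
def tau (P : Loc A l g n d) (x x' y : C) : ℂ :=
  P.u x' (pk A y) (A.e (pk A y) y) / P.u x (pk A y) (A.e (pk A y) y)

theorem tau_eq (hx : x ∈ P.V) (hx' : x' ∈ P.V) (b : y ≠ x) (b' : y ≠ x') (c : InU A j y) :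
    tau P x x' y = P.u x' j (A.e j y) / P.u x j (A.e j y) := by
  have o := mem_O c.1 (pk_inU A y).1
  have e := P.ul x hx _ _ _ o (inU_off c b).2
  have e0 := P.un x hx j _ (inU_off c b)
  rw [P.ul x' hx' _ _ _ o (inU_off c b').2, e, tr_e c.1, mul_div_mul_left _ _
    (left_ne_zero_of_mul (e ▸ e0)), tau]

theorem tau_ct [T2Space C] (hx : x ∈ P.V) (hx' : x' ∈ P.V) (b : y ≠ x) (b' : y ≠ x') :
    ContinuousAt (fun p : C × C => tau P x p.1 p.2) (x', y) := by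
  have c := pk_inU A y
  have ev : ∀ᶠ p : C × C in 𝓝 (x', y), (p.1 ∈ P.V ∧ InU A (pk A y) p.2) ∧ p.2 ≠ x ∧ p.2 ≠ p.1 :=
    ((continuousAt_fst.eventually (P.opn.eventually_mem hx')).and
      (continuousAt_snd.eventually ((inU_open A (pk A y)).eventually_mem (x := y) c))).and
      ((continuousAt_snd.eventually_ne b).and
        ((isOpen_ne_fun continuous_snd continuous_fst).mem_nhds b'))
  have e := ct_e (p := fun p : C × C => p.2) (y := (x', y)) continuousAt_snd c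
  refine ContinuousAt.congr (f := fun p : C × C => P.u p.1 (pk A y) (A.e (pk A y) p.2) /
    P.u x (pk A y) (A.e (pk A y) p.2)) (ContinuousAt.div ?_ ?_ (P.un x hx _ _ (inU_off c b)))
    (ev.mono fun p v => (tau_eq hx v.1.1 v.2.1 v.2.2 v.1.2).symm)
  · exact (P.uc _ (x', _) ⟨hx', inU_off c b'⟩).tendsto.comp (tendsto_nhdsWithin_iff.2
      ⟨continuousAt_fst.prodMk e, ev.mono fun p v => ⟨v.1.1, inU_off v.1.2 v.2.2⟩⟩)
  · exact (P.uc _ (x, _) ⟨hx, inU_off c b⟩).tendsto.comp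
      (f := fun p : C × C => (x, A.e (pk A y) p.2)) (tendsto_nhdsWithin_iff.2
      ⟨continuousAt_const.prodMk e, ev.mono fun p v => ⟨hx, inU_off v.1.2 v.2.1⟩⟩)

/-- nearby poles -/
theorem loc_mov (S : Std A l n d) (hx : x ∈ P.V) : ∀ᶠ x' in 𝓝 x, ∀ (hx' : x' ∈ P.V) ρ ρ' F F',
    Fr P hx a γ ρ F → Fr P hx' a γ ρ' F' → ∃ h : Mn n, h.det ≠ 0 ∧ Cj h ρ ρ' := by
  haveI := S.t2
  have hn : n ≠ 0 := (two_pos.trans_le S.two).ne'
  let y₀ : Pc x := P.pc ⟨(x, ((Real.log P.δ - 1 : ℝ) : ℂ)), hx, by simp⟩ rfl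
  obtain ⟨k, hk⟩ := P.cy.cov (fib hx y₀)
  have : ∀ s, ∃ p : Path y₀ y₀, hol P.U P.c ((Path.Homotopic.Quotient.mk p).map (fib hx)) k k =
      FreeGroup.of s := fun s => by
    obtain ⟨ω, e⟩ := (P.univ x hx y₀ k hk).2 (FreeGroup.of s)
    obtain ⟨p, hp⟩ := Path.Homotopic.Quotient.mk_surjective ω.toPath
    rw [P275RH.Cy.rep_apply, ← hp] at e
    exact ⟨p, (P.cy.hol_pull (r := fun k => k) (P.cy.toOc.pre (fib hx)) (fun _ _ h => h) _ hk
      hk).symm.trans e⟩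
  choose p hp using this
  let K : Set C := insert y₀.1 (⋃ s, range fun t => (p s t).1)
  have hK : IsCompact K := (isCompact_iUnion fun s => isCompact_range (by fun_prop)).insert _
  have hp' : ∀ s t, (p s t).1 ∈ K := fun s t => Or.inr (mem_iUnion.2 ⟨s, t, rfl⟩)
  have hK' : ∀ y ∈ K, y ≠ x := by
    rintro y (rfl | h)
    · exact y₀.2
    · obtain ⟨s, t, rfl⟩ := mem_iUnion.1 h
      exact (p s t).2
  letI := chs A
  haveI := ChartedSpace.locallyPathConnectedSpace ℂ C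
  filter_upwards [hK.eventually_forall_of_forall_eventually
    (P := fun x' y => tau P x x' y ∈ Complex.slitPlane) fun y hy =>
      (tau_ct hx hx (hK' y hy) (hK' y hy)).eventually (Complex.isOpen_slitPlane.eventually_mem (by
        show _ / _ ∈ _
        rw [div_self (P.un x hx _ _ (inU_off (pk_inU A y) (hK' y hy)))]
        exact Complex.one_mem_slitPlane)), pathComponentIn_mem_nhds (inter_mem (P.opn.mem_nhds hx)
      (hK.isClosed.isOpen_compl.mem_nhds fun h => hK' x h rfl))]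
    with x' v1 ⟨η, hη⟩ hx' ρ ρ' F F' f f'
  have hK2 : ∀ t, ∀ y ∈ K, y ≠ η t := fun t y hy e => (hη t).2 (e ▸ hy)
  have hK3 : ∀ y ∈ K, y ≠ x' := fun y hy => η.target ▸ hK2 1 y hy
  let q : C(K, Pc x) := ⟨fun y => ⟨y.1, hK' _ y.2⟩, by fun_prop⟩
  let q' : C(K, Pc x') := ⟨fun y => ⟨y.1, hK3 _ y.2⟩, by fun_prop⟩
  obtain ⟨M, m1, m2⟩ := cmp q q' (fun _ => rfl) f f' (φ := fun _ _ => 1)
    (fun _ _ _ => ⟨analyticAt_const, Eventually.of_forall fun v => ⟨0, by simp [dconst]⟩⟩)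
    (fun _ _ _ _ _ => by rw [one_mul, mul_one]) (t := fun y => rt n 1 1 (tau P x x' y))
    (continuous_iff_continuousAt.2 fun y => (rt_an 1 (by simpa using v1 y y.2)).continuousAt.comp
      ((tau_ct hx hx' (hK' _ y.2) (hK3 _ y.2)).comp_of_eq (f := fun y : K => (x', y.1))
        (by fun_prop) rfl))
    (fun y j c => by
      rw [rt_pow hn (one_pow n) one_ne_zero (Complex.slitPlane_ne_zero (v1 y y.2)), Matrix.det_one,
        one_mul, tau_eq hx hx' (hK' _ y.2) (hK3 _ y.2) c]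
      exact div_mul_cancel₀ _ (P.un x hx _ _ (inU_off c (hK' _ y.2))))
  let y₁ : K := ⟨y₀.1, Or.inl rfl⟩
  obtain ⟨m, hm⟩ := P.cy.cov (fib hx' (q' y₁))
  let b : Path (fib hx y₀) (fib hx' (q' y₁)) :=
    ⟨⟨fun t => ⟨(η t, y₀.1), (hη t).1, hK2 t _ y₁.2⟩, by fun_prop⟩,
      Subtype.ext (Prod.ext η.source rfl), Subtype.ext (Prod.ext η.target rfl)⟩
  have d1 : (M k m y₁).det ≠ 0 := by
    rw [(m1 k m y₁ _ hk hm (pk_inU A _)).1]
    exact one_ne_zero
  have d2 := det_mul_ne (det_inv_ne d1) (wv_ne ρ' (hol P.U P.c (.mk b) k m))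
  refine ⟨_, d2, (cj_iff d2).2 fun s => ?_⟩
  let ω : Path y₁ y₁ := ⟨⟨fun t => ⟨_, hp' s t⟩, by fun_prop⟩,
    Subtype.ext (congrArg (·.1) (p s).source), Subtype.ext (congrArg (·.1) (p s).target)⟩
  have e1 := m2 y₁ y₁ (.mk ω) k m k m hk hm hk hm
  obtain ⟨b', e2, e3⟩ := free_htp (fun u : unitInterval × unitInterval => (⟨(η u.1, (p s u.2).1), (hη _).1,
    hK2 _ _ (hp' s _)⟩ : Wd P.V)) (by fun_prop) ((p s).map (fib hx).continuous)
    (ω.map ((fib hx').comp q').continuous) (fun t => Subtype.ext (Prod.ext η.source.symm rfl))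
    (fun t => Subtype.ext (Prod.ext η.target.symm rfl))
    fun t => Subtype.ext (Prod.ext rfl (congrArg (·.1) ((p s).source.trans (p s).target.symm)))
  obtain rfl : b = b' := Path.ext (funext fun t => by
    rw [e2 t]
    exact Subtype.ext (Prod.ext rfl (congrArg (·.1) (p s).source.symm)))
  have e4 : FreeGroup.of s = _ := (hp s).symm.trans
    ((congrArg (P.cy.rep hk) e3).trans (P.cy.rep_bpt hk hm _ _))
  have e5 : hol P.U P.c ((Path.Homotopic.Quotient.mk ω).map ((fib hx).comp q)) k k =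
    FreeGroup.of s := hp s
  rw [e5, wv_of] at e1
  rw [← wv_of ρ' s, e4, mul_assoc, ← wv_mul, mul_assoc _⁻¹, mul_inv_cancel_left, wv_mul,
    ← mul_assoc, ← mul_assoc, ← inv_mul_can d1 (ρ s).1, ← e1]
  simp only [mul_assoc, mul_inv_can d1]
  rfl

theorem Fr.congr (f : Fr P hx a γ ρ F) (e : ∀ (y : Pc x) j, InU A j y → a j =ᶠ[𝓝 (A.e j y)] a' j) :
    Fr P hx a' γ ρ F :=
  ⟨fun y k j b c => (f.pf y k j b c).congr (e y j c) EventuallyEq.rfl, f.det, f.chg, f.coc⟩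

/-- **MOV** -/
theorem mov (S : Std A l n d) (P : Loc A l g n d) (E : EXR P) : MOV P := by
  intro hV z z' ρ ρ' r h1 h2 R R' R0 _ eg ea'
  haveI := S.t2
  obtain ⟨s, b1, b2, hz, hz'⟩ := good2 R.1 R'.1 h1 h2
  have key : ∀ z' : Dat C A.N n, Good (A.res s b1 (b2.trans h2)) l z' → z'.g = z.g →
      (∀ k, ∀ w ∈ off (A.res s b1 (b2.trans h2)) z.x k, w ∈ off (A.res s b1 (b2.trans h2)) z'.x k →
        z'.a k w = z.a k w) → ∀ ρ', Rel P z' ρ' →
      ∃ hx F, Fr P (x := z'.x) hx (ea A z) z.g ρ' F := by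
    rintro z' hz' eg e ρ' ⟨-, hx, F, f, -⟩
    refine ⟨hx, F, eg ▸ (fr_of f rfl hx).congr fun y j c => ?_⟩
    filter_upwards [(off_open _ _).mem_nhds (InU.off (h1 := b1) (h2 := b2.trans h2) c y.2)]
      with v hv
    refine (P275AD.hx_eq (P275AD.good_an hz' hv).continuousAt ?_).symm
    filter_upwards [P275AD.ev_off (A := A.res s b1 (b2.trans h2)) (i := j) z.x hv.1,
      P275AD.ev_off (A := A.res s b1 (b2.trans h2)) (i := j) z'.x hv.1] with u u1 u2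
    exact (e j u u1 u2).symm
  have con := con_of_agr hz S.cc.res (agr_ea hz) (hl_ea hz R0)
  have ex : ∀ x (hx : x ∈ P.V), ∃ ρ F, Fr P hx (ea A z) z.g ρ F := fun x hx => by
    have u := InU.res (h1 := b1) (h2 := b2.trans h2) (P.inU hx)
    have := P275NU.good_of_con con (x := x) (σ := fun i => z.g i P.a (A.e i x))
      (fun _ a => hz.cc.det.ne (mem_O a u)) fun i j a b => by
        have := hz.cc.mul i j P.a _ (mem_O a b) (mem_O a u)
        rwa [tr_e a] at this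
    obtain ⟨ρ, -, hx', F, f, -⟩ := E.1 _ ⟨⟨s, b1, _, this⟩, R.1.lam,
      show Gen d 0 from R0 ▸ R.1.gen⟩ hx
    exact ⟨ρ, F, fr_of f rfl hx⟩
  obtain ⟨hx, F, f⟩ := key z hz rfl (fun _ _ _ _ => rfl) ρ R
  obtain ⟨hx', F', f'⟩ := key z' hz' eg (fun k w a b => ea' k w ⟨ball_subset_ball b2 a.1, a.2⟩
    ⟨ball_subset_ball b2 b.1, b.2⟩) ρ' R'
  refine hV.induction₂' (fun x x' => ∀ (hx : x ∈ P.V) (hx' : x' ∈ P.V) ρ ρ' F F',
    Fr P hx (ea A z) z.g ρ F → Fr P hx' (ea A z) z.g ρ' F' → ∃ h : Mn n, h.det ≠ 0 ∧ Cj h ρ ρ')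
    (fun x hx => ((loc_mov (a := ea A z) (γ := z.g) S hx).filter_mono nhdsWithin_le_nhds).mono
      fun x' v =>
      ⟨fun _ => v, fun hx' _ ρ ρ' F F' f f' => ?_⟩)
    (fun x y w _ hy _ a b hx hw ρ ρ' F F' f f' => ?_) hx hx' hx hx' ρ ρ' F F' f f'
  · obtain ⟨h, d0, c⟩ := v hx' ρ' ρ F' F f' f
    exact ⟨_, det_inv_ne d0, cj_symm c d0⟩
  · obtain ⟨ρ'', F'', f''⟩ := ex y hy
    obtain ⟨h, d0, c⟩ := a hx hy _ _ _ _ f f''
    obtain ⟨h', d0', c'⟩ := b hy hw _ _ _ _ f'' f'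
    exact ⟨_, det_mul_ne d0 d0', cj_trans c c'⟩

end Vale.Agent.P275RI
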