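import Vale.Agent.P275RI.Iso

/-!
P275 (helper16): the normalisation from one point, the block TRN.
-/

set_option linter.all false

open scoped Topology Real Matrix.Norms.Operator
open Filter Set Metric Complex
open Vale.Agent.P275GC (At)
open Vale.Agent.P275GC.At
open Vale.Agent.P275NA (Cy Fm Mn)
open Vale.Agent.P275ST (Pc)
open Vale.Agent.P275RH (cwd Oc Lc Fs PQ hol)
open Vale.Agent.P275MO Vale.Agent.P275Z Vale.Agent.P275RL Vale.Agent.P275MB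

noncomputable section

namespace Vale.Agent.P275RI

variable {C : Type} [TopologicalSpace C] {n g : ℕ} {ρ ρ' : Tup g n} {h : Mn n}
  {A : At C} {l : Cy A ℂ} {d : ℤ} {P : Loc A l g n d} {F : P.ι → Fm A (Mn n)} {z : Dat C A.N n}
  {G : ℂ → Mn n} {r : ℝ} {h1 : 1 < r} {h2 : r ≤ A.R}

/-- the frame near the pole does not depend on the index -/
theorem frm_b {hx : z.x ∈ P.V} (f : Frm P z hx ρ F) {q : Nd P.V P.δ} (e : q.1.1 = z.x) {k m : P.ι}
    (hk : P.ν q ∈ P.U k) (hm : P.ν q ∈ P.U m) :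
    F m P.a (A.e P.a z.x + exp q.1.2) * wv ρ (P.b m q) =
      F k P.a (A.e P.a z.x + exp q.1.2) * wv ρ (P.b k q) := by
  have := f.coc (P.pc q e) k m P.a (P.fib_pc q e hx ▸ hk) (P.fib_pc q e hx ▸ hm) (P.ν_e q).1
  rw [P.fib_pc, show A.e P.a (P.pc q e).1 = _ from (P.ν_e q).2, e] at this
  rw [this, P.fs.tr k m q hk hm, smul_eq_mul, wv_mul, mul_assoc]

/-- **the normalisation is seen at one point** -/
theorem nrm_of (hz : Good (A.res r h1 h2) l z) (hg : Gen d z.R) {hx : z.x ∈ P.V}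
    (f : Frm P z hx ρ F) (i : IsG A z P.a P.δ G) {q : Nd P.V P.δ} (e : q.1.1 = z.x) {k : P.ι}
    (hk : P.ν q ∈ P.U k) {t : ℂ} (ht : F k P.a (A.e P.a z.x + exp q.1.2) * wv ρ (P.b k q) =
      t • (G (A.e P.a z.x + exp q.1.2) * ex z.R (-q.1.2))) : Nrm P z ρ F := by
  let S : Set ℂ := {L | L.re < Real.log P.δ}
  haveI : PreconnectedSpace S :=
    isPreconnected_iff_preconnectedSpace.1 (convex_halfSpace_re_lt _).isPreconnected
  let m : S → Nd P.V P.δ := fun L => ⟨(z.x, L.1), hx, L.2⟩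
  have hm : Continuous m := by fun_prop
  let p : S → Prop := fun L => ∀ k, P.ν (m L) ∈ P.U k → ∃ t : ℂ,
    F k P.a (A.e P.a z.x + exp L.1) * wv ρ (P.b k (m L)) =
      t • (G (A.e P.a z.x + exp L.1) * ex z.R (-L.1))
  have u := InU.res (h1 := h1) (h2 := h2) (P.inU hx)
  have hd : ∀ L : S, (G (A.e P.a z.x + exp L.1) * ex z.R (-L.1)).det ≠ 0 := fun L => by
    have := det_fr (A := A.res r h1 h2) hz hg u (P.ball_res hx h1) i (P.mem_ball (m L)) (-L.1)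
    exact this ▸ hz.fr _ u
  have key : ∀ L L', p L ↔ p L' := by
    refine PreconnectedSpace.induction₂' (fun L L' => p L ↔ p L') (fun L => ?_)
      ⟨fun _ _ _ a b => a.trans b⟩
    obtain ⟨k, hk⟩ := P.cy.cov (P.ν (m L))
    have a1 := f.pf (P.pc (m L) rfl) k P.a (P.fib_pc (m L) rfl hx ▸ hk) (P.ν_e _).1
    have a2 := f.det_ne (y := P.pc (m L) rfl) (P.fib_pc (m L) rfl hx ▸ hk) (P.ν_e _).1
    rw [show A.e P.a (P.pc (m L) rfl).1 = A.e P.a z.x + exp L.1 from (P.ν_e _).2] at a1 a2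
    have a3 : PF (z.a P.a) (fun v => G v * ex z.R (-br (A.e P.a z.x) L.1 v))
        (A.e P.a z.x + exp L.1) :=
      (IsG.ph_br (A := A.res r h1 h2) hz hg u (P.ball_res hx h1) i (P.mem_ball (m L))).pf
    have a4 : (G (A.e P.a z.x + exp L.1) *
        ex z.R (-br (A.e P.a z.x) L.1 (A.e P.a z.x + exp L.1))).det ≠ 0 := by
      rw [br_self]
      exact hd L
    obtain ⟨s, s1, s2, s3⟩ := a3.proj a1 a4 a2
    have c : ContinuousAt (fun L' : S => A.e P.a z.x + exp L'.1) L := by fun_prop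
    have all : ∀ᶠ L' in 𝓝 L, p L' ↔ ∃ t : ℂ, (G (A.e P.a z.x + exp L.1) *
        ex z.R (-br (A.e P.a z.x) L.1 (A.e P.a z.x + exp L.1)))⁻¹ *
        F k P.a (A.e P.a z.x + exp L.1) * wv ρ (P.b k (m L)) = t • 1 := by
      filter_upwards [c.eventually s3, c.eventually (s1.self_of_nhds.eventually_ne
        (s2 ▸ one_ne_zero)), hm.continuousAt.eventually (P.fs.lc k _ hk),
        (P.ν.continuous.comp hm).continuousAt.eventually ((P.cy.opn k).eventually_mem hk),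
        continuous_subtype_val.continuousAt.eventually (br_exp (A.e P.a z.x) L.1)]
        with L' v1 v2 v3 v4 v5
      replace v1 : F k P.a (A.e P.a z.x + exp L'.1) = s (A.e P.a z.x + exp L'.1) •
        (G (A.e P.a z.x + exp L'.1) * ex z.R (-br (A.e P.a z.x) L.1 (A.e P.a z.x + exp L'.1)) * _) :=
        v1
      rw [v5] at v1
      constructor
      · intro b
        obtain ⟨t, ht⟩ := b k v4
        rw [v1, v3, smul_mul_assoc, ← eq_inv_smul_iff₀ v2, smul_smul, mul_assoc] at ht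
        exact ⟨_, by rw [← inv_mul_can (hd L') (_ * wv ρ _), ht, mul_smul_comm, inv_mul' (hd L')]⟩
      · rintro ⟨t, ht⟩ k' hk'
        refine ⟨s (A.e P.a z.x + exp L'.1) * t, (frm_b f (q := m L') rfl v4 hk').trans ?_⟩
        show F k P.a (A.e P.a z.x + exp L'.1) * _ = _
        rw [v1, v3, smul_mul_assoc, mul_assoc]
        erw [ht]
        rw [mul_smul_comm, mul_one, smul_smul]
    filter_upwards [all] with L' v
    exact ⟨all.self_of_nhds.trans v.symm, v.trans all.self_of_nhds.symm⟩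
  have em : ∀ q : Nd P.V P.δ, q.1.1 = z.x → m ⟨q.1.2, q.2.2⟩ = q := fun q e =>
    Subtype.ext (Prod.ext e.symm rfl)
  refine ⟨G, i, fun q' k' e' hk' => ?_⟩
  have := (key ⟨q.1.2, q.2.2⟩ ⟨q'.1.2, q'.2.2⟩).1 (fun j hj => by
    rw [em q e] at hj ⊢
    exact ⟨t, (frm_b f e hk hj).trans ht⟩) k' (by rwa [em q' e'])
  rwa [em q' e'] at this

theorem ne_of_det {X Y : Mn n} {c : ℂ} (hn : n ≠ 0) (e : X = c • Y) (d0 : X.det ≠ 0) : c ≠ 0 :=
  fun a => d0 (by rw [e, det_sm, a, zero_pow hn, zero_mul])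

/-- the monodromy around the pole, up to a scalar -/
theorem cwd_eq (hn : n ≠ 0) (hz : Good (A.res r h1 h2) l z) (R : Rel P z ρ) (e : ℤ) :
    ∃ s : ℂ, wv ρ (cwd g ^ e) = s • ex z.R (e * -(2 * π * I)) := by
  obtain ⟨p, hx, F, f, G, i, N⟩ := R
  let q : Nd P.V P.δ := ⟨(z.x, ((Real.log P.δ - 1 : ℝ) : ℂ)), hx, by simp⟩
  obtain ⟨k, hk⟩ := P.cy.cov (P.ν q)
  obtain ⟨t, ht⟩ := N q k rfl hk
  obtain ⟨t', ht'⟩ := N q.T k rfl (P.ν_T q ▸ hk)
  have u := InU.res (h1 := h1) (h2 := h2) (P.inU hx)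
  have d1 : (G (A.e P.a z.x + exp q.1.2) * ex z.R (-q.1.2)).det ≠ 0 := by
    have := det_fr (A := A.res r h1 h2) hz p.gen u (P.ball_res hx h1) i (P.mem_ball q) (-q.1.2)
    exact this ▸ hz.fr _ u
  have a2 := f.det_ne (y := P.pc q rfl) (P.fib_pc q rfl hx ▸ hk) (P.ν_e _).1
  rw [show A.e P.a (P.pc q rfl).1 = A.e P.a z.x + exp q.1.2 from (P.ν_e _).2] at a2
  have t0 := ne_of_det hn ht (det_mul_ne a2 (wv_ne _ _))
  rw [P.per k q hk, wv_mul, ← mul_assoc, show q.T.1.2 = q.1.2 + 2 * π * I from rfl,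
    exp_periodic, ht, neg_add, ex_add, ← mul_assoc, smul_mul_assoc, ← eq_inv_smul_iff₀ t0,
    smul_smul] at ht'
  have c : wv ρ (cwd g) = (t⁻¹ * t') • ex z.R (-(2 * π * I)) := by
    rw [← inv_mul_can d1 (wv ρ _), ht', mul_smul_comm, inv_mul_can d1]
  have c0 := ne_of_det hn c (wv_ne _ _)
  induction e using Int.induction_on with
  | zero => exact ⟨1, by simp [wv_one, ex]⟩
  | succ e a =>
    obtain ⟨s, a⟩ := a
    exact ⟨s * (t⁻¹ * t'), by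
      rw [zpow_add_one, wv_mul, a, c, smul_mul_smul_comm, ← ex_add]
      push_cast
      rw [add_mul, one_mul]⟩
  | pred e a =>
    obtain ⟨s, a⟩ := a
    exact ⟨s * (t⁻¹ * t')⁻¹, by
      rw [zpow_sub_one, wv_mul, wv_inv, a, c, inv_sm c0 (ex_det_ne _ _), smul_mul_smul_comm, ex_inv,
        ← ex_add]
      push_cast
      rw [sub_mul, one_mul, sub_eq_add_neg]⟩

open Classical in
/-- the point of the fibre with coordinate `w` -/
def lft (A : At C) {x : C} (y₀ : Pc x) (j : Fin A.N) (w : ℂ) : Pc x :=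
  if h : (A.e j).symm w ≠ x then ⟨_, h⟩ else y₀

theorem lft_e {x : C} (y₀ : Pc x) {y : Pc x} {j : Fin A.N} (b : y.1 ∈ (A.e j).source) :
    lft A y₀ j (A.e j y) = y := by
  have e := (A.e j).left_inv b
  rw [lft, dif_pos (by rw [e]; exact y.2)]
  exact Subtype.ext e

theorem lft_ct [T2Space C] {x : C} (y₀ : Pc x) {y : Pc x} {j : Fin A.N}
    (b : y.1 ∈ (A.e j).source) : ContinuousAt (lft A y₀ j) (A.e j y) := by
  refine Topology.IsInducing.subtypeVal.continuousAt_iff.2 ((contAt_symm (i := j) (map_src b)).congr ?_)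
  filter_upwards [(off_open x j).mem_nhds ⟨map_src b, by rw [(A.e j).left_inv b]; exact y.2⟩]
    with w hw
  rw [Function.comp_apply, lft, dif_pos hw.2]

/-- the frames for other local data -/
theorem fr_tr [T2Space C] {Q : Loc A l g n d} {t : Aut g n} {x : C} {hP : x ∈ P.V} {hQ : x ∈ Q.V}
    {a : Fm A (Mn n)} {γ : Cy A (Mn n)} (f : Fr P hP a γ ρ F) (T : Tr P Q t hP hQ)
    (e : t.Im ρ ρ') (y₀ : Pc x) : ∃ F', Fr Q hQ a γ ρ' F' ∧ ∀ (y : Pc x) k m j, fib hP y ∈ P.U k →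
      fib hQ y ∈ Q.U m → InU A j y →
        F' m j (A.e j y) = T.f m y • (F k j (A.e j y) * wv ρ (T.β k m y)) := by
  choose κ hκ using fun y : Pc x => P.cy.cov (fib hP y)
  let F' : Q.ι → Fm A (Mn n) := fun m j w => T.f m (lft A y₀ j w) •
    (F (κ (lft A y₀ j w)) j w * wv ρ (T.β (κ (lft A y₀ j w)) m (lft A y₀ j w)))
  have b : ∀ (y : Pc x) k m j, fib hP y ∈ P.U k → fib hQ y ∈ Q.U m → InU A j y →
      F' m j (A.e j y) = T.f m y • (F k j (A.e j y) * wv ρ (T.β k m y)) := fun y k m j a1 a2 a3 => by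
    simp only [F', lft_e y₀ a3.1]
    rw [T.left k _ m y a1 (hκ y) a2, wv_mul, ← mul_assoc, ← f.coc y k _ j a1 (hκ y) a3]
  refine ⟨F', ⟨fun y m j a2 a3 => ?_, fun y m j a2 a3 => ?_, fun y m j j' a2 a3 a4 => ?_,
    fun y m m' j a1 a2 a3 => ?_⟩, b⟩
  · have ev := (P.ev_mem hP (hκ y) a3).and (Q.ev_mem hQ a2 a3)
    refine (((f.pf y _ j (hκ y) a3).mul (wv_ne ρ (T.β (κ y) m y))).smul
      (t := fun w => T.f m (lft A y₀ j w)) ?_).congr EventuallyEq.rfl ?_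
    · filter_upwards [ev_chart a3.1 ev] with _ ⟨y', c1, c2, c3⟩
      rw [← c3]
      exact ((T.fc m).continuousAt (((Q.cyf hQ).opn m).mem_nhds c1.2.1)).comp_of_eq
        (lft_ct y₀ c2) (lft_e y₀ c2)
    · filter_upwards [ev_chart a3.1 (ev.and (T.lc _ m y ⟨hκ y, a2⟩))] with _ ⟨y', c1, c2, c3⟩
      rw [← c3, b y' _ m j c1.1.1.1 c1.1.2.1 c1.1.1.2, lft_e y₀ c2, c1.2]
  · rw [b y _ m j (hκ y) a2 a3, det_sm, Matrix.det_mul, wv_det, mul_one, f.det y _ j (hκ y) a3,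
      T.fp m y j a2 a3]
  · rw [b y _ m j (hκ y) a2 a3, b y _ m j' (hκ y) a2 a4, f.chg y _ j j' (hκ y) a3 a4, mul_assoc,
      mul_smul_comm]
  · rw [b y _ m j (hκ y) a1 a3, b y _ m' j (hκ y) a2 a3, T.right _ m m' y (hκ y) a1 a2,
      T.fr m m' y a1 a2, im_wv T.χ_of e, wv_mul, smul_mul_smul_comm, mul_assoc]

/-- **TRN** -/
theorem trn (S : Std A l n d) (P : Loc A l g n d) : TRN P := by
  intro Q t z ρ ρ' hP hQ R T e
  haveI := S.t2
  have hn : n ≠ 0 := (two_pos.trans_le S.two).ne'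
  obtain ⟨r, h1, h2, hz⟩ := R.1.good
  have cw := cwd_eq hn hz R
  obtain ⟨p, hx, F, f, G, i, N⟩ := R
  have u := P.inU hP
  have u' := Q.inU hQ
  obtain ⟨G', i'⟩ := isG_ex (A := A.res r h1 h2) hz p.gen (InU.res u') (Q.ball_res hQ h1)
  have hO := mem_O u'.1 u.1
  obtain ⟨η, η1, η2⟩ := exists_eta (an_tr hO) (d_ne hO)
  rw [tr_e (j := P.a) u'.1] at η2
  obtain ⟨s, -, -, s3⟩ := IsG.chg (A := A.res r h1 h2) hn hz p.lam p.gen (InU.res u') (InU.res u)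
    Q.hδ P.hδ i' i η1 η2
  replace s3 : ∀ᶠ v in 𝓝 (A.e Q.a z.x), z.g Q.a P.a v * G (A.tr Q.a P.a v) * ex z.R (-η v) =
    s v • (G' v * ex z.R (-η (A.e Q.a z.x))) := s3
  obtain ⟨ε, ε0, hε⟩ := T.nrm
  have c := (an_tr hO).continuousAt
  rw [ContinuousAt, tr_e u'.1] at c
  have B : ∀ {a : ℂ} {r : ℝ}, 0 < r → ∀ᶠ v in 𝓝 a, v ∈ ball a r := fun h => ball_mem_nhds _ h
  obtain ⟨v, ⟨⟨v1, v2⟩, v3, v4, v5, v6⟩, v7⟩ := ((((s3.and η2).and
    (((O_open _ _).eventually_mem hO).and ((B Q.hδ).and ((c.eventually (B P.hδ)).and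
    (c.eventually (B ε0)))))).filter_mono (nhdsWithin_le_nhds (s := {A.e Q.a z.x}ᶜ))).and
    eventually_mem_nhdsWithin).exists
  have w4 : v - A.e Q.a z.x ≠ 0 := sub_ne_zero.2 v7
  obtain ⟨L, hL⟩ : ∃ L, v = A.e Q.a z.x + exp L := ⟨_, by rw [exp_log w4, add_sub_cancel]⟩
  have hL' : A.tr Q.a P.a v = A.e P.a z.x + exp (η v + L) := by
    rw [exp_add, ← sub_eq_iff_eq_add', ← v2, sub_eq_iff_eq_add'.2 hL]
  let q' : Nd Q.V Q.δ := ⟨(z.x, L), hQ, (exp_mem_ball Q.hδ).1 (add_mem_ball.1 (hL ▸ v4))⟩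
  let q : Nd P.V P.δ := ⟨(z.x, η v + L), hP, (exp_mem_ball P.hδ).1 (add_mem_ball.1 (hL' ▸ v5))⟩
  have e' := Q.fib_pc q' rfl hQ
  have e0 : fib hP (Q.pc q' rfl) = P.ν q := Subtype.ext (by
    rw [P.ν_eq]
    refine Prod.ext rfl ?_
    show (Q.ν q').1.2 = (A.e P.a).symm (A.e P.a z.x + exp (η v + L))
    rw [← hL', symm_tr v3, Q.ν_eq, hL])
  obtain ⟨k, hk⟩ := P.cy.cov (P.ν q)
  obtain ⟨m, hm⟩ := Q.cy.cov (Q.ν q')
  obtain ⟨o, ho⟩ := hε (Q.pc q' rfl) q q' k m ((exp_mem_ball ε0).1 (add_mem_ball.1 (hL' ▸ v6)))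
    e0.symm e'.symm (e0 ▸ hk) (e' ▸ hm)
  obtain ⟨F', f', b⟩ := fr_tr (fr_of f rfl hP) T e (Q.pc q' rfl)
  obtain ⟨c0, s1, hs1⟩ : ∃ c s : ℂ, wv ρ (cwd g ^ o) = s • ex z.R c := ⟨_, cw o⟩
  obtain ⟨s2, hs2⟩ := N q k rfl hk
  have d0 := ex_det_ne z.R (η (A.e Q.a z.x) - c0)
  obtain ⟨ρ'', c2⟩ := cj_ex ρ' d0
  obtain ⟨κ, k1⟩ := ex_kap d0
  have f2 := Fr.frm (f'.act c2 k1)
  refine ⟨_, ρ'', c2, p, hQ, _, f2, nrm_of hz p.gen f2 i' (q := q') rfl hm
    (t := κ * (T.f m (Q.pc q' rfl) * T.χ (Q.b m q') * (s2 * s1 * s v))) ?_⟩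
  have e1 : A.e Q.a (Q.pc q' rfl).1 = v := (Q.ν_e q').2.trans hL.symm
  have e2 : (Q.pc q' rfl).1 = (P.ν q).1.2 := congrArg (·.1.2) e0
  have b1 := b _ k m Q.a (e0 ▸ hk) (e' ▸ hm) (Q.ν_e q').1
  have b2 := f.chg _ k Q.a P.a (show fib hx (Q.pc q' rfl) ∈ P.U k from e0 ▸ hk) (Q.ν_e q').1
    (e2 ▸ (P.ν_e q).1)
  rw [e1] at b1 b2
  rw [e2, (P.ν_e q).2] at b2
  show κ • (F' m Q.a (A.e Q.a z.x + exp L) * _) * _ = _ • (G' (A.e Q.a z.x + exp L) * ex z.R (-L))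
  change F k P.a (A.e P.a z.x + exp (η v + L)) * _ =
    s2 • (G (A.e P.a z.x + exp (η v + L)) * ex z.R (-(η v + L))) at hs2
  change _ = _ * F k P.a (A.e P.a z.x + exp (η v + L)) at b2
  rw [← hL'] at hs2 b2
  rw [← hL, cj_wv d0 c2, im_wv T.χ_of e, b1, b2]
  have h3 := congrArg (wv ρ) ho
  rw [wv_mul, wv_mul, hs1] at h3
  have h4 : ex z.R (-(η v + L)) * (ex z.R c0 *
      ex z.R (η (A.e Q.a z.x) - c0)) =
      ex z.R (-η v) * (ex z.R (η (A.e Q.a z.x)) * ex z.R (-L)) := by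
    simp only [← ex_add]
    congr 1
    ring
  have e3 := congrArg (fun X => z.g Q.a P.a v * F k P.a (A.tr Q.a P.a v) * X *
    ex z.R (η (A.e Q.a z.x) - c0)) h3
  have e4 := congrArg (fun X => z.g Q.a P.a v * X * ex z.R c0 *
    ex z.R (η (A.e Q.a z.x) - c0)) hs2
  have e5 := congrArg (· * (ex z.R (η (A.e Q.a z.x)) * ex z.R (-L))) v1
  simp only [mul_assoc, smul_mul_assoc, mul_smul_comm, mul_inv_can d0, h4] at e3 e4 e5 ⊢
  rw [← mul_assoc (ex z.R (-η (A.e Q.a z.x))), ex_neg_mul, one_mul] at e5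
  rw [e3, e4, e5]
  simp only [smul_smul]
  congr 1
  ring

end Vale.Agent.P275RI
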